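import Vale.Agent.P011.E6I.Defs
import Vale.Agent.P011.E6.Ids

/-!
Block R (helper450): the automorphisms of the octonion algebra attached to the quaternions of
norm one, as elements of the inner group.
-/

set_option linter.unusedSectionVars false

namespace Vale.Agent.P011.H450.R

open Vale.Agent.P011.MPQ
open Vale.Agent.P011.D4 Vale.Agent.P011.D4.Oct Vale.Agent.P011.E6

section alg

variable {F : Type} [Field F] {a b c : Fˣ}

/-- The multiplication of the `l`-part by a quaternion. -/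
def lp (κ : Qt a b) : Alb a b c →ₗ[F] Alb a b c where
  toFun x := ⟨0, 0, 0, ⟨0, κ * x.x1.snd⟩, ⟨0, κ * x.x2.snd⟩, ⟨0, κ * x.x3.snd⟩⟩
  map_add' x y := by
    ext1 <;> simp
    all_goals ext1 <;> simp [mul_add]
  map_smul' t x := by
    ext1 <;> simp
    all_goals ext1 <;> simp

theorem lp_apply (κ : Qt a b) (x : Alb a b c) : lp κ x =
    ⟨0, 0, 0, ⟨0, κ * x.x1.snd⟩, ⟨0, κ * x.x2.snd⟩, ⟨0, κ * x.x3.snd⟩⟩ := rfl

theorem lp_add (κ κ' : Qt a b) : (lp (κ + κ') : Alb a b c →ₗ[F] Alb a b c) = lp κ + lp κ' := by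
  apply LinearMap.ext
  intro x
  rw [LinearMap.add_apply, lp_apply, lp_apply, lp_apply]
  ext1 <;> simp
  all_goals ext1 <;> simp [add_mul]

theorem lp_smul (t : F) (κ : Qt a b) : (lp (t • κ) : Alb a b c →ₗ[F] Alb a b c) = t • lp κ := by
  apply LinearMap.ext
  intro x
  rw [LinearMap.smul_apply, lp_apply, lp_apply]
  ext1 <;> simp
  all_goals ext1 <;> simp

/-- The automorphism attached to a quaternion of norm one. -/
def kp (κ : Qt a b) (x : Alb a b c) : Alb a b c :=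
  ⟨x.d1, x.d2, x.d3, ⟨x.x1.fst, κ * x.x1.snd⟩, ⟨x.x2.fst, κ * x.x2.snd⟩,
      ⟨x.x3.fst, κ * x.x3.snd⟩⟩

theorem kp_eq (κ : Qt a b) (x : Alb a b c) : kp κ x = x + lp (κ - 1) x := by
  rw [lp_apply, kp]
  ext1
  · simp
  · simp
  · simp
  · ext1 <;> simp [sub_mul]
  · ext1 <;> simp [sub_mul]
  · ext1 <;> simp [sub_mul]

theorem kp_kp (κ κ' : Qt a b) (x : Alb a b c) : kp κ (kp κ' x) = kp (κ * κ') x := by
  simp only [kp, mul_assoc]

theorem kp_one (x : Alb a b c) : kp 1 x = x := by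
  simp only [kp, one_mul]

theorem norm_snd {κ : Qt a b} (h : nrd κ = 1) (x : Oct a b c) :
    Oct.norm (⟨x.fst, κ * x.snd⟩ : Oct a b c) = Oct.norm x := by
  rw [Oct.norm, Oct.norm, nrd_mul, h, one_mul]

theorem star_mul_kap {κ : Qt a b} (h : nrd κ = 1) : star κ * κ = 1 := by
  have h1 : star κ * κ = algebraMap F _ (nrd κ) := by
    ext
    all_goals simp [nrd, QuaternionAlgebra.algebraMap_eq]
    all_goals ring
  rw [h1, h, map_one]

/-- The multiplication of the `l`-part by a quaternion of norm one is an automorphism. -/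
theorem mul_snd {κ : Qt a b} (h : nrd κ = 1) (x y : Oct a b c) :
    (⟨x.fst, κ * x.snd⟩ : Oct a b c) * ⟨y.fst, κ * y.snd⟩ = ⟨(x * y).fst, κ * (x * y).snd⟩ := by
  ext1
  · simp only [fst_mul, star_mul]
    congr 2
    calc star y.snd * star κ * (κ * x.snd) = star y.snd * (star κ * κ) * x.snd := by
          simp only [mul_assoc]
      _ = _ := by rw [star_mul_kap h, mul_one]
  · simp only [snd_mul, mul_add, mul_assoc]

theorem bil_snd (κ : Qt a b) (x : Oct a b c) :
    bil (⟨x.fst, κ * x.snd⟩ : Oct a b c) 1 = bil x 1 := by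
  rw [bil_eq, bil_eq]
  simp

theorem cub_kp {κ : Qt a b} (h : nrd κ = 1) (x : Alb a b c) : Alb.cub (kp κ x) = Alb.cub x := by
  have e1 : bil ((⟨x.x1.fst, κ * x.x1.snd⟩ : Oct a b c) * ⟨x.x2.fst, κ * x.x2.snd⟩ *
      ⟨x.x3.fst, κ * x.x3.snd⟩) 1 = bil (x.x1 * x.x2 * x.x3) 1 := by
    rw [mul_snd h, mul_snd h (x.x1 * x.x2) x.x3, bil_snd]
  simp only [Alb.cub, kp]
  rw [e1, norm_snd h, norm_snd h, norm_snd h]

end alg

section grp

variable {k L : Type} [Field k] [Field L] [Algebra k L] {ρ : L ≃ₐ[k] L} {lam a b c : kˣ}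

theorem nrd_star' {F : Type} [Field F] {a b : Fˣ} (κ : Qt a b) : nrd (star κ) = nrd κ := by
  simp [nrd]

/-- The automorphism attached to a quaternion of norm one, as a linear equivalence. -/
def kpE {κ : Qt a b} (h : nrd κ = 1) : AlbL L a b c ≃ₗ[L] AlbL L a b c where
  toFun := kp (qup L κ)
  invFun := kp (qup L (star κ))
  map_add' x y := by
    rw [kp_eq, kp_eq, kp_eq, map_add]
    abel
  map_smul' t x := by
    rw [kp_eq, kp_eq, map_smul, RingHom.id_apply, smul_add]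
  left_inv x := by
    rw [kp_kp, ← qup_mul, star_mul_kap h, qup_one, kp_one]
  right_inv x := by
    have h1 : κ * star κ = 1 := by
      have := star_mul_kap (κ := star κ) (by rw [nrd_star', h])
      rwa [star_star] at this
    rw [kp_kp, ← qup_mul, h1, qup_one, kp_one]

theorem kpE_apply {κ : Qt a b} (h : nrd κ = 1) (x : AlbL L a b c) :
    kpE h x = kp (qup L κ) x := rfl

theorem kpE_mem {κ : Qt a b} (h : nrd κ = 1) : (kpE h : AlbL L a b c ≃ₗ[L] AlbL L a b c) ∈
    E6I.GI ρ lam a b c := by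
  refine ⟨fun x => cub_kp (by rw [nrd_qup, h, map_one]) x, fun x => ?_⟩
  rw [kpE_apply, kpE_apply]
  simp only [kp, E6I.ph]
  ext1
  · rfl
  · rfl
  · rfl
  · simp only [omap, qmap_mul, qmap_qup]
    ext1
    · rfl
    · simp only [snd_smul, mul_smul_comm]
  · simp only [omap, qmap_mul, qmap_qup]
  · simp only [omap, qmap_mul, qmap_qup]

/-- Two of the automorphisms commute only if the quaternions commute. -/
theorem kpE_comm {κ κ' : Qt a b} (h : nrd κ = 1) (h' : nrd κ' = 1)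
    (hc : (kpE h : AlbL L a b c ≃ₗ[L] AlbL L a b c) * kpE h' = kpE h' * kpE h) :
    κ * κ' = κ' * κ := by
  have h1 := congrArg (fun f : AlbL L a b c ≃ₗ[L] AlbL L a b c =>
    (f ⟨0, 0, 0, ⟨0, 1⟩, 0, 0⟩).x1.snd) hc
  simp only [LinearEquiv.mul_apply, kpE_apply, kp_kp] at h1
  simp only [kp, mul_one, ← qup_mul] at h1
  have h2 : ∀ q : Qt a b, qup L q = ⟨algebraMap k L q.re, algebraMap k L q.imI,
    algebraMap k L q.imJ, algebraMap k L q.imK⟩ := fun _ => rfl
  rw [h2, h2] at h1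
  have inj := (algebraMap k L).injective
  ext
  · exact inj (congrArg QuaternionAlgebra.re h1)
  · exact inj (congrArg QuaternionAlgebra.imI h1)
  · exact inj (congrArg QuaternionAlgebra.imJ h1)
  · exact inj (congrArg QuaternionAlgebra.imK h1)

end grp

section cay

variable {F : Type} [Field F] {a b c : Fˣ}

/-- The Cayley transform of `t i`. -/
def kI (a b : Fˣ) (t : F) : Qt a b := ⟨(1 + a * t ^ 2) / (1 - a * t ^ 2), 2 * t / (1 - a * t ^ 2), 0, 0⟩

/-- The Cayley transform of `j`. -/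
def kJ (a b : Fˣ) : Qt a b := ⟨(1 + b) / (1 - b), 0, 2 / (1 - b), 0⟩

theorem ne_a (hdiv : Division a b c) (t : F) : (1 : F) - a * t ^ 2 ≠ 0 := by
  intro h
  have h1 : (⟨⟨1, t, 0, 0⟩, 0⟩ : Oct a b c) = 0 := hdiv _ (by
    simp [Oct.norm, nrd]
    exact h)
  have h2 := congrArg (fun x : Oct a b c => x.fst.re) h1
  simp at h2

theorem ne_b (hdiv : Division a b c) : (1 : F) - b ≠ 0 := by
  intro h
  have h1 : (⟨⟨1, 0, 1, 0⟩, 0⟩ : Oct a b c) = 0 := hdiv _ (by
    simp [Oct.norm, nrd]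
    exact h)
  have h2 := congrArg (fun x : Oct a b c => x.fst.re) h1
  simp at h2

theorem nrd_kI {t : F} (h : (1 : F) - a * t ^ 2 ≠ 0) : nrd (kI a b t) = 1 := by
  simp only [nrd, kI]
  field_simp
  ring

theorem nrd_kJ (h : (1 : F) - b ≠ 0) : nrd (kJ a b) = 1 := by
  simp only [nrd, kJ]
  field_simp
  ring

theorem kI_kJ [CharZero F] {t : F} (ht : t ≠ 0) (h : (1 : F) - a * t ^ 2 ≠ 0)
    (h' : (1 : F) - b ≠ 0) : kI a b t * kJ a b ≠ kJ a b * kI a b t := by
  intro hc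
  have h1 := congrArg QuaternionAlgebra.imK hc
  simp only [kI, kJ, QuaternionAlgebra.imK_mul] at h1
  have h2 : 2 * (2 * t / (1 - a * t ^ 2)) * (2 / (1 - b)) = 0 := by linear_combination h1
  have h3 : (2 : F) ≠ 0 := two_ne_zero
  have h4 : 2 * (2 * t / (1 - a * t ^ 2)) * (2 / (1 - (b : F))) ≠ 0 := by positivity
  exact h4 h2

theorem kI_sub (a b : Fˣ) {t : F} (h : (1 : F) - a * t ^ 2 ≠ 0) : kI a b t - 1 =
    (2 * a * t ^ 2 / (1 - a * t ^ 2)) • (1 : Qt a b) +
      (2 * t / (1 - a * t ^ 2)) • (⟨0, 1, 0, 0⟩ : Qt a b) := by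
  ext
  · simp [kI]
    field_simp
    ring
  · simp [kI]
  · simp [kI]
  · simp [kI]

end cay

end Vale.Agent.P011.H450.R
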