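import Vale.Agent.P011.H450.R.Cjg
import Vale.Agent.P011.H450.R.Kap
import Vale.Agent.P011.H261.Rl.Spec

/-!
Block R (helper450): the base change of the maps that preserve the cubic norm.
-/

set_option linter.unusedSectionVars false

open Filter Topology

namespace Vale.Agent.P011.H450.R

open Vale.Agent.P011.MPQ
open Vale.Agent.P011.D4 Vale.Agent.P011.D4.Oct
open Vale.Agent.P011.E6 hiding cj
open Vale.Agent.P011.H261.Rl
open scoped ComplexConjugate

section ev

variable {F : Type} [Field F] (φ : F →+* ℂ) {a b c : Fˣ}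

theorem uw_val (a : Fˣ) : ((uw φ a : ℂˣ) : ℂ) = φ a := rfl

theorem evq_mul (x y : Qt a b) : evq φ (x * y) = evq φ x * evq φ y := by
  ext <;> simp [uw_val]

theorem evq_star (x : Qt a b) : evq φ (star x) = star (evq φ x) := by
  ext <;> simp

theorem evq_one : evq φ (1 : Qt a b) = 1 := by
  ext <;> simp

theorem nrd_evq (x : Qt a b) : nrd (evq φ x) = φ (nrd x) := by
  simp [nrd, uw_val]

theorem evo_mul (x y : Oct a b c) : evo φ (x * y) = evo φ x * evo φ y := by
  ext1
  · simp only [evo, fst_mul, evq_add, evq_mul, evq_smul, evq_star, uw_val]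
  · simp only [evo, snd_mul, evq_add, evq_mul, evq_star]

theorem norm_evo (x : Oct a b c) : Oct.norm (evo φ x) = φ (Oct.norm x) := by
  simp only [Oct.norm, evo, nrd_evq, uw_val, map_sub, map_mul]

theorem evo_one : evo φ (1 : Oct a b c) = 1 := by
  ext1
  · exact evq_one φ
  · exact evq_zero φ

theorem bil_evo (x y : Oct a b c) : bil (evo φ x) (evo φ y) = φ (bil x y) := by
  rw [bil, bil, ← evo_add, norm_evo, norm_evo, norm_evo, map_sub, map_sub]

theorem cub_ev (x : Alb a b c) : Alb.cub (ev φ x) = φ (Alb.cub x) := by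
  have h1 : bil (evo φ x.x1 * evo φ x.x2 * evo φ x.x3) 1 = φ (bil (x.x1 * x.x2 * x.x3) 1) := by
    rw [← evo_mul, ← evo_mul, ← bil_evo, evo_one]
  simp only [Alb.cub, ev, norm_evo, h1, map_add, map_sub, map_mul]

/-- The trilinear form in terms of the cubic norm. -/
theorem tri_cub {F : Type} [Field F] {a b c : Fˣ} (x y z : Alb a b c) :
    Alb.tf (Alb.cross x y) z = Alb.cub (x + y + z) - Alb.cub (x + y) - Alb.cub (x + z) -
      Alb.cub (y + z) + Alb.cub x + Alb.cub y + Alb.cub z := by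
  rw [Alb.cub_add (x + y) z, Alb.cub_add x y, Alb.cub_add x z, Alb.cub_add y z, Alb.adj_add,
    Alb.tf_add_left, Alb.tf_add_left, Alb.tf_add_left]
  ring

theorem tri_ev (x y z : Alb a b c) : Alb.tf (Alb.cross (ev φ x) (ev φ y)) (ev φ z) =
    φ (Alb.tf (Alb.cross x y) z) := by
  rw [tri_cub, tri_cub]
  simp only [← ev_add, cub_ev, map_add, map_sub]

end ev

section loc

variable {F : Type} [Field F] [CharZero F] (φ : F →+* ℂ) {a b c : Fˣ}
  {f : Alb a b c → Alb a b c}

/-- The trilinear form as a linear map in the third variable. -/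
noncomputable def tl3 {a b c : ℂˣ} (x y : Alb a b c) : Alb a b c →ₗ[ℂ] ℂ where
  toFun z := Alb.tf (Alb.cross x y) z
  map_add' z z' := Alb.tf_add_right _ _ _
  map_smul' t z := Alb.tf_smul_right _ _ _

/-- The base change of a map that preserves the cubic norm. -/
theorem loc_GN (ha : ∀ x y, f (x + y) = f x + f y) (hs : ∀ (t : F) x, f (t • x) = t • f x)
    (hc : ∀ x, Alb.cub (f x) = Alb.cub x) : loc φ f ∈ GN _ _ _ := by
  obtain ⟨G, hG⟩ : ∃ G : Alb (uw φ a) (uw φ b) (uw φ c) →ₗ[ℂ] Alb (uw φ a) (uw φ b) (uw φ c),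
    G = (loc φ f).toLinearMap := ⟨_, rfl⟩
  have hev : ∀ x, G (ev φ x) = ev φ (f x) := fun x => by
    rw [hG]
    exact loc_ev φ ha hs x
  have h0 : ∀ x y z, Alb.tf (Alb.cross (f x) (f y)) (f z) = Alb.tf (Alb.cross x y) z := by
    intro x y z
    rw [tri_cub, tri_cub]
    simp only [← ha, hc]
  have T_sym : ∀ x y z : Alb (uw φ a) (uw φ b) (uw φ c),
      Alb.tf (Alb.cross x y) z = Alb.tf (Alb.cross y z) x := by
    intro x y z
    rw [Alb.tf_cross, Alb.tf_comm]
  have h1 : ∀ (x y : Alb a b c) (z), Alb.tf (Alb.cross (G (ev φ x)) (G (ev φ y))) (G z) =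
      Alb.tf (Alb.cross (ev φ x) (ev φ y)) z := by
    intro x y z
    have e := ext_ev φ (f := (tl3 (G (ev φ x)) (G (ev φ y))).comp G) (g := tl3 (ev φ x) (ev φ y))
      (fun z => by
        change Alb.tf (Alb.cross (G (ev φ x)) (G (ev φ y))) (G (ev φ z)) =
          Alb.tf (Alb.cross (ev φ x) (ev φ y)) (ev φ z)
        rw [hev, hev, hev, tri_ev, tri_ev, h0])
    exact congrArg (fun g : _ →ₗ[ℂ] ℂ => g z) e
  have h2 : ∀ (x : Alb a b c) (y z), Alb.tf (Alb.cross (G (ev φ x)) (G y)) (G z) =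
      Alb.tf (Alb.cross (ev φ x) y) z := by
    intro x y z
    rw [T_sym, T_sym, T_sym (ev φ x), T_sym y]
    have e := ext_ev φ (f := (tl3 (G z) (G (ev φ x))).comp G) (g := tl3 z (ev φ x))
      (fun y => by
        change Alb.tf (Alb.cross (G z) (G (ev φ x))) (G (ev φ y)) =
          Alb.tf (Alb.cross z (ev φ x)) (ev φ y)
        rw [T_sym, T_sym z, h1])
    exact congrArg (fun g : _ →ₗ[ℂ] ℂ => g y) e
  have h3 : ∀ x y z, Alb.tf (Alb.cross (G x) (G y)) (G z) = Alb.tf (Alb.cross x y) z := by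
    intro x y z
    rw [T_sym, T_sym x]
    have e := ext_ev φ (f := (tl3 (G y) (G z)).comp G) (g := tl3 y z)
      (fun x => by
        change Alb.tf (Alb.cross (G y) (G z)) (G (ev φ x)) = Alb.tf (Alb.cross y z) (ev φ x)
        rw [← T_sym, ← T_sym (ev φ x), h2])
    exact congrArg (fun g : _ →ₗ[ℂ] ℂ => g x) e
  intro x
  have h4 := h3 x x x
  have h5 : ∀ x : Alb (uw φ a) (uw φ b) (uw φ c), Alb.tf (Alb.cross x x) x = 6 * Alb.cub x := by
    intro x
    rw [Alb.cross_self, Alb.tf_smul_left, Alb.tf_adj_self]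
    ring
  rw [h5, h5, hG] at h4
  exact mul_left_cancel₀ (by norm_num : (6 : ℂ) ≠ 0) h4

end loc

end Vale.Agent.P011.H450.R
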