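import Vale.Agent.P011.E6.Herm
import Vale.Agent.P011.H261.Rl.Defs

/-!
Block R (helper450): the group of the cubic norm and its Lie algebra.
-/

set_option linter.unusedSectionVars false

namespace Vale.Agent.P011.H450.R

open Vale.Agent.P011.MPQ
open Vale.Agent.P011.D4 Vale.Agent.P011.D4.Oct
open Vale.Agent.P011.E6 hiding cj
open Vale.Agent.P011.H261.Rl
open Alb

section alg

variable {F : Type} [Field F] [NeZero (2 : F)] {a b c : Fˣ}

/-- The maps that preserve the cubic norm preserve the trilinear form. -/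
theorem tri_map {f : Alb a b c →ₗ[F] Alb a b c} (h : ∀ x, cub (f x) = cub x) (x y z : Alb a b c) :
    tf (cross (f x) (f y)) (f z) = tf (cross x y) z := by
  have h0 : ∀ x y, tf (adj (f x)) (f y) = tf (adj x) y := fun x y => by
    have h1 := tf_adj_of_cub (φ := f) (μ := 1) (fun x => by rw [one_mul]; exact h x) x y
    rwa [one_mul] at h1
  have h1 := h0 (x + y) z
  rw [map_add, adj_add, adj_add, tf_add_left, tf_add_left, tf_add_left, tf_add_left, h0, h0] at h1
  linear_combination h1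

/-- The diagonal of the derivative of the trilinear form. -/
theorem tri_diag [NeZero (3 : F)] {X : Alb a b c → Alb a b c}
    (h : ∀ x y z, tf (cross (X x) y) z + tf (cross x (X y)) z + tf (cross x y) (X z) = 0)
    (x : Alb a b c) : tf (X x) (adj x) = 0 := by
  have h1 := h x x x
  have e1 : tf (cross (X x) x) x = tf (cross x x) (X x) := by
    rw [tf_cross, tf_comm]
  have e2 : tf (cross x (X x)) x = tf (cross x x) (X x) := by
    rw [cross_comm, e1]
  rw [e1, e2, Alb.cross_self, tf_smul_left, tf_comm (adj x)] at h1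
  have h2 : (2 : F) ≠ 0 := NeZero.ne 2
  have h3 : (3 : F) ≠ 0 := NeZero.ne 3
  have h4 : (3 * 2 : F) * tf (X x) (adj x) = 0 := by linear_combination h1
  exact (mul_eq_zero.1 h4).resolve_left (mul_ne_zero h3 h2)

end alg

section conj

variable {a b c : ℂˣ}

theorem conj_LN {f f' X : R a b c} (hf : f ∈ GN a b c) (h : f * f' = 1)
    (hX : X ∈ LN a b c) : f * X * f' ∈ LN a b c := by
  intro x
  have e1 : x = f (f' x) := by
    have := congrArg (fun g : R a b c => g x) h
    exact this.symm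
  have h0 : ∀ x y, tf (adj (f x)) (f y) = tf (adj x) y := fun x y => by
    have h1 := tf_adj_of_cub (φ := (f : Alb a b c →ₗ[ℂ] Alb a b c)) (μ := 1)
      (fun x => by rw [one_mul]; exact hf x) x y
    rwa [one_mul] at h1
  obtain ⟨y, hy⟩ : ∃ y, y = f' x := ⟨_, rfl⟩
  rw [← hy] at e1
  change tf (f (X (f' x))) (adj x) = 0
  rw [← hy, e1, tf_comm, h0, tf_comm]
  exact hX y

theorem neg_LN {X : R a b c} (hX : X ∈ LN a b c) : -X ∈ LN a b c := by
  intro x
  change tf (-(X x)) (adj x) = 0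
  have h1 := tf_smul_left (-1 : ℂ) (X x) (adj x)
  rw [neg_one_smul] at h1
  rw [h1, hX x, mul_zero]

theorem mul_CJ {f f' : R a b c} (hf : f ∈ CJ a b c) (hf' : f' ∈ CJ a b c) : f * f' ∈ CJ a b c := by
  intro x
  change f (f' (cj x)) = cj (f (f' x))
  rw [hf', hf]

theorem cjq_cjq {a b : ℂˣ} (x : Qt a b) : cjq (cjq x) = x := by
  ext <;> simp [cjq]

theorem cjo_cjo (x : Oct a b c) : cjo (cjo x) = x := by
  ext1 <;> simp [cjo, cjq_cjq]

theorem cj_cj (x : Alb a b c) : cj (cj x) = x := by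
  ext1 <;> simp [cj, cjo_cjo]

theorem cj_neg (x : Alb a b c) : cj (-x) = -cj x := by
  simp only [cj]
  ext1
  · simp
  · simp
  · simp
  · ext <;> simp [cjo, cjq]
  · ext <;> simp [cjo, cjq]
  · ext <;> simp [cjo, cjq]

theorem neg_CJ {f : R a b c} (hf : f ∈ CJ a b c) : -f ∈ CJ a b c := by
  intro x
  change -(f (cj x)) = cj (-(f x))
  rw [hf, cj_neg]

theorem conj_LR {f f' X : R a b c} (hf : f ∈ GN a b c) (hc : f ∈ CJ a b c) (hc' : f' ∈ CJ a b c)
    (h : f * f' = 1) (hX : X ∈ LN a b c ∩ CJ a b c) : f * X * f' ∈ LN a b c ∩ CJ a b c :=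
  ⟨conj_LN hf h hX.1, mul_CJ (mul_CJ hc hX.2) hc'⟩

end conj

end Vale.Agent.P011.H450.R
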