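import Vale.Agent.P011.H450.R.RealC
import Vale.Agent.P011.E6I.Normal

/-!
Block R (helper450): the connectedness at a real place of the field of degree six.
-/

namespace Vale.Agent.P011.H450.R

open Vale.Agent.P011.MPQ Vale.Agent.P011.D4 Vale.Agent.P011.D4.Oct Vale.Agent.P011.E6
open Vale.Agent.P011.E6H
open Vale.Agent.P011.H261.Rl

/-- **The connectedness at a real place.** -/
theorem conn_real {k E : Type} [Field k] [NumberField k] [Field E] [NumberField E] [Algebra k E]
    {ρ σ : E ≃ₐ[k] E} {lam : Eˣ} {g : Fin 3 → Eˣ} {kap a b c : kˣ} (hS : IsSextic ρ σ kap)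
    (hg : IsForm ρ σ lam g) (hE : Division (up E a) (up E b) (up E c)) {φ : E →+* ℂ}
    (hφ : RealE φ) :
    Cn (Ll σ g φ a b c) {x | ∃ f ∈ G3 ρ σ lam g a b c, x = lc φ f} :=
  conn_of_normal hS hg hE hφ fun H N hN => E6I.e6i_normal H N hN

end Vale.Agent.P011.H450.R
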