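import Mathlib.Analysis.Normed.Algebra.Exponential
import Mathlib.GroupTheory.Subgroup.Center

/-!
Block R (helper450): a group whose noncentral normal subgroups are everything is generated by the
exponentials, if the elements close to one are exponentials.
-/

open NormedSpace

namespace Vale.Agent.P011.H450.R

section gen

variable {A : Type*} [Ring A] [TopologicalSpace A] [IsTopologicalRing A]

/-- The submonoid generated by the exponentials. -/
noncomputable def ExpM (g : Set A) : Submonoid A := Submonoid.closure (exp '' g)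

theorem exp_mem_ExpM {g : Set A} {X : A} (h : X ∈ g) : exp X ∈ ExpM g :=
  Submonoid.subset_closure ⟨X, h, rfl⟩

end gen

section grp

variable {A : Type*} [NormedRing A] [NormedAlgebra ℝ A] [CompleteSpace A]

/-- The inverses of the products of exponentials. -/
theorem exists_inv {g : Set A} (hneg : ∀ X ∈ g, -X ∈ g) {x : A} (hx : x ∈ ExpM g) :
    ∃ y ∈ ExpM g, x * y = 1 ∧ y * x = 1 := by
  have _ : NormedAlgebra ℚ A := NormedAlgebra.restrictScalars ℚ ℝ A
  induction hx using Submonoid.closure_induction with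
  | mem x hx =>
    obtain ⟨X, hX, rfl⟩ := hx
    refine ⟨exp (-X), exp_mem_ExpM (hneg X hX), ?_, ?_⟩
    · rw [← exp_add_of_commute (Commute.refl X).neg_right, add_neg_cancel, exp_zero]
    · rw [← exp_add_of_commute (Commute.refl X).neg_left, neg_add_cancel, exp_zero]
  | one => exact ⟨1, one_mem _, one_mul _, one_mul _⟩
  | mul x y _ _ ihx ihy =>
    obtain ⟨x', hx', h1, h2⟩ := ihx
    obtain ⟨y', hy', h3, h4⟩ := ihy
    refine ⟨y' * x', mul_mem hy' hx', ?_, ?_⟩
    · rw [mul_assoc, ← mul_assoc y, h3, one_mul, h1]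
    · rw [mul_assoc, ← mul_assoc x', h2, one_mul, h4]

/-- The products of exponentials are stable under conjugation. -/
theorem conj_mem_ExpM {g : Set A} {u u' : A} (h : u * u' = 1) (h' : u' * u = 1)
    (hg : ∀ X ∈ g, u * X * u' ∈ g) {x : A} (hx : x ∈ ExpM g) : u * x * u' ∈ ExpM g := by
  have _ : NormedAlgebra ℚ A := NormedAlgebra.restrictScalars ℚ ℝ A
  induction hx using Submonoid.closure_induction with
  | mem x hx =>
    obtain ⟨X, hX, rfl⟩ := hx
    have e : u * exp X * u' = exp (u * X * u') := by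
      have := exp_units_conj (⟨u, u', h, h'⟩ : Aˣ) X
      simp only [Units.val_mk, Units.inv_mk] at this
      exact this.symm
    rw [e]
    exact exp_mem_ExpM (hg X hX)
  | one =>
    rw [mul_one, h]
    exact one_mem _
  | mul x y _ _ ihx ihy =>
    have e : u * (x * y) * u' = (u * x * u') * (u * y * u') := by
      calc u * (x * y) * u' = u * x * 1 * (y * u') := by noncomm_ring
        _ = u * x * (u' * u) * (y * u') := by rw [h']
        _ = _ := by noncomm_ring
    rw [e]
    exact mul_mem ihx ihy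

/-- **The argument of normal subgroups.** -/
theorem normal_arg {Γ : Type*} [Group Γ] (Φ : Γ →* A)
    (hΓ : ∀ N : Subgroup Γ, N.Normal → N ≤ Subgroup.center Γ ∨ N = ⊤)
    {g : Set A} (hneg : ∀ X ∈ g, -X ∈ g) (hconj : ∀ γ, ∀ X ∈ g, Φ γ * X * Φ γ⁻¹ ∈ g)
    {P : Γ → Prop} (hlog : ∀ γ, P γ → ∃ X ∈ g, exp X = Φ γ)
    (hnc : ∃ γ, P γ ∧ γ ∉ Subgroup.center Γ) (γ : Γ) : Φ γ ∈ ExpM g := by
  have hΦ : ∀ γ, Φ γ * Φ γ⁻¹ = 1 := fun γ => by rw [← map_mul, mul_inv_cancel, map_one]
  have hΦ' : ∀ γ, Φ γ⁻¹ * Φ γ = 1 := fun γ => by rw [← map_mul, inv_mul_cancel, map_one]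
  let H : Subgroup Γ :=
    { carrier := {γ | Φ γ ∈ ExpM g}
      one_mem' := by
        change Φ 1 ∈ ExpM g
        rw [map_one]
        exact one_mem _
      mul_mem' := fun {γ δ} h1 h2 => by
        change Φ (γ * δ) ∈ ExpM g
        rw [map_mul]
        exact mul_mem h1 h2
      inv_mem' := fun {γ} h1 => by
        change Φ γ⁻¹ ∈ ExpM g
        obtain ⟨y, hy, h2, h3⟩ := exists_inv hneg h1
        have h4 : Φ γ⁻¹ = y := by
          calc Φ γ⁻¹ = Φ γ⁻¹ * (Φ γ * y) := by rw [h2, mul_one]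
            _ = y := by rw [← mul_assoc, hΦ', one_mul]
        rw [h4]
        exact hy }
  have hH : H.Normal := ⟨fun γ hγ δ => by
    change Φ (δ * γ * δ⁻¹) ∈ ExpM g
    rw [map_mul, map_mul]
    exact conj_mem_ExpM (hΦ δ) (hΦ' δ) (hconj δ) hγ⟩
  rcases hΓ H hH with h | h
  · exfalso
    obtain ⟨γ0, h1, h2⟩ := hnc
    obtain ⟨X, hX, hX'⟩ := hlog γ0 h1
    apply h2
    apply h
    change Φ γ0 ∈ ExpM g
    rw [← hX']
    exact exp_mem_ExpM hX
  · have h1 : γ ∈ H := by rw [h]; exact Subgroup.mem_top γ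
    exact h1

end grp

end Vale.Agent.P011.H450.R
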