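import Vale.Agent.P011.H450.R.Ev
import Vale.Agent.P011.H450.R.Gen
import Vale.Agent.P011.H525.Lie.Form

/-!
Block R (helper450): the inner group at a real place.
-/

set_option linter.unusedSectionVars false

open Filter Topology NormedSpace

namespace Vale.Agent.P011.H450.R

open Vale.Agent.P011.MPQ
open Vale.Agent.P011.D4 Vale.Agent.P011.D4.Oct
open Vale.Agent.P011.E6 hiding cj
open Vale.Agent.P011.H261.Rl
open scoped ComplexConjugate

section cj

variable {a b c : ℂˣ}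

theorem cj_add (x y : Alb a b c) : cj (x + y) = cj x + cj y := by
  ext1
  · simp [cj]
  · simp [cj]
  · simp [cj]
  · ext <;> simp [cj, cjo, cjq]
  · ext <;> simp [cj, cjo, cjq]
  · ext <;> simp [cj, cjo, cjq]

theorem cj_smul (t : ℂ) (x : Alb a b c) : cj (t • x) = conj t • cj x := by
  ext1
  · simp [cj]
  · simp [cj]
  · simp [cj]
  · ext <;> simp [cj, cjo, cjq]
  · ext <;> simp [cj, cjo, cjq]
  · ext <;> simp [cj, cjo, cjq]

/-- The conjugate of an operator. -/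
noncomputable def cjF (G : Alb a b c →ₗ[ℂ] Alb a b c) : Alb a b c →ₗ[ℂ] Alb a b c where
  toFun x := cj (G (cj x))
  map_add' x y := by rw [cj_add, map_add, cj_add]
  map_smul' t x := by
    rw [cj_smul, map_smul, cj_smul, Complex.conj_conj, RingHom.id_apply]

/-- **Logarithms** at a real place. -/
theorem log_real {g : R a b c} (hg : ‖g - 1‖ ≤ 1 / 16) (h1 : g ∈ GN a b c) (h2 : g ∈ CJ a b c) :
    ∃ X ∈ LN a b c ∩ CJ a b c, exp X = g := by
  obtain ⟨X, -, hX, hT, -, hC⟩ := H525.Lie.exists_log_form hg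
  refine ⟨X, ⟨fun x => ?_, fun x => ?_⟩, hX⟩
  · refine tri_diag (X := fun x => X x) (fun x y z => ?_) x
    refine hT (fun x y z => Alb.tf (Alb.cross x y) z) ⟨?_, ?_, ?_⟩ (fun x y z => ?_) x y z
    · intro y z
      refine ⟨fun x x' => ?_, fun r x => ?_⟩
      · beta_reduce
        rw [Alb.cross_add_left, Alb.tf_add_left]
      · beta_reduce
        rw [Alb.cross_smul_left, Alb.tf_smul_left]
    · intro x z
      refine ⟨fun y y' => ?_, fun r y => ?_⟩
      · beta_reduce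
        rw [Alb.cross_add_right, Alb.tf_add_left]
      · beta_reduce
        rw [Alb.cross_smul_right, Alb.tf_smul_left]
    · intro x y
      refine ⟨fun z z' => ?_, fun r z => ?_⟩
      · beta_reduce
        rw [Alb.tf_add_right]
      · beta_reduce
        rw [Alb.tf_smul_right]
    · exact tri_map (f := (g : Alb a b c →ₗ[ℂ] Alb a b c)) h1 x y z
  · refine hC cj ⟨cj_add, fun r x => ?_⟩ h2 x
    rw [cj_smul, Complex.conj_ofReal]

end cj

section real

variable {F : Type} [Field F] (φ : F →+* ℂ) {a b c : Fˣ}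

theorem cj_ev (hφ : ∀ x, conj (φ x) = φ x) (x : Alb a b c) : cj (ev φ x) = ev φ x := by
  ext1
  · exact hφ _
  · exact hφ _
  · exact hφ _
  · ext <;> exact hφ _
  · ext <;> exact hφ _
  · ext <;> exact hφ _

theorem loc_CJ (hφ : ∀ x, conj (φ x) = φ x) {f : Alb a b c → Alb a b c}
    (ha : ∀ x y, f (x + y) = f x + f y) (hs : ∀ (t : F) x, f (t • x) = t • f x) :
    loc φ f ∈ CJ _ _ _ := by
  have e := ext_ev φ (f := cjF (loc φ f).toLinearMap) (g := (loc φ f).toLinearMap) (fun x => by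
    change cj (loc φ f (cj (ev φ x))) = loc φ f (ev φ x)
    rw [cj_ev φ hφ, loc_ev φ ha hs, cj_ev φ hφ])
  intro x
  have h1 : cj (loc φ f (cj (cj x))) = loc φ f (cj x) :=
    congrArg (fun g : _ →ₗ[ℂ] _ => g (cj x)) e
  rw [cj_cj] at h1
  exact h1.symm

end real

section grp

variable {k L : Type} [Field k] [Field L] [Algebra k L] {ρ : L ≃ₐ[k] L} {lam a b c : kˣ}
  (φ : L →+* ℂ)

theorem evq_kap (κ : Qt a b) (x : AlbL L a b c) :
    ev φ (kp (qup L κ) x) = ev φ x + lp (evq φ (qup L κ) - 1) (ev φ x) := by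
  rw [← kp_eq]
  ext1
  · rfl
  · rfl
  · rfl
  · ext1
    · rfl
    · exact evq_mul φ _ _
  · ext1
    · rfl
    · exact evq_mul φ _ _
  · ext1
    · rfl
    · exact evq_mul φ _ _

/-- The base change, as a homomorphism. -/
noncomputable def Phi : E6I.GI ρ lam a b c →* R (uw φ (up L a)) (uw φ (up L b)) (uw φ (up L c)) where
  toFun f := loc φ (f.1 : AlbL L a b c → AlbL L a b c)
  map_one' := loc_one φ
  map_mul' f g := loc_mul φ (f := fun x => f.1 x) (g := fun x => g.1 x) (map_add f.1)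
    (map_smul f.1) (map_add g.1) (map_smul g.1)

theorem Phi_ev (f : E6I.GI ρ lam a b c) (x : AlbL L a b c) :
    Phi φ f (ev φ x) = ev φ (f.1 x) :=
  loc_ev φ (map_add f.1) (map_smul f.1) x

/-- The base change of the automorphism attached to a quaternion. -/
theorem Phi_kp {κ : Qt a b} (h : nrd κ = 1) :
    Phi φ (⟨kpE h, kpE_mem h⟩ : E6I.GI ρ lam a b c) =
      1 + LinearMap.toContinuousLinearMap (lp (evq φ (qup L κ) - 1)) := by
  apply ext_R φ
  intro x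
  rw [Phi_ev]
  change ev φ (kp (qup L κ) x) = ev φ x + lp (evq φ (qup L κ) - 1) (ev φ x)
  exact evq_kap φ κ x

/-- The coefficients. -/
theorem evq_coef {κ : Qt a b} {s u : k} (h1 : κ.re = 1 + s) (h2 : κ.imI = u) (h3 : κ.imJ = 0)
    (h4 : κ.imK = 0) : evq φ (qup L κ) - 1 =
      (φ (algebraMap k L s)) • 1 +
        (φ (algebraMap k L u)) • (⟨0, 1, 0, 0⟩ : Qt (uw φ (up L a)) (uw φ (up L b))) := by
  have e1 : (evq φ (qup L κ)).re = 1 + φ (algebraMap k L s) := by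
    change φ (algebraMap k L κ.re) = _
    rw [h1, map_add, map_add, map_one, map_one]
  have e2 : (evq φ (qup L κ)).imI = φ (algebraMap k L u) := by
    change φ (algebraMap k L κ.imI) = _
    rw [h2]
  have e3 : (evq φ (qup L κ)).imJ = 0 := by
    change φ (algebraMap k L κ.imJ) = _
    rw [h3, map_zero, map_zero]
  have e4 : (evq φ (qup L κ)).imK = 0 := by
    change φ (algebraMap k L κ.imK) = _
    rw [h4, map_zero, map_zero]
  ext
  · rw [QuaternionAlgebra.re_sub, e1]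
    change 1 + φ (algebraMap k L s) - 1 = φ (algebraMap k L s) * 1 + φ (algebraMap k L u) * 0
    ring
  · rw [QuaternionAlgebra.imI_sub, e2]
    change φ (algebraMap k L u) - 0 = φ (algebraMap k L s) * 0 + φ (algebraMap k L u) * 1
    ring
  · rw [QuaternionAlgebra.imJ_sub, e3]
    change 0 - 0 = φ (algebraMap k L s) * 0 + φ (algebraMap k L u) * 0
    ring
  · rw [QuaternionAlgebra.imK_sub, e4]
    change 0 - 0 = φ (algebraMap k L s) * 0 + φ (algebraMap k L u) * 0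
    ring

theorem kI_re (a b : kˣ) {t : k} (h : (1 : k) - a * t ^ 2 ≠ 0) :
    (kI a b t).re = 1 + 2 * a * t ^ 2 / (1 - a * t ^ 2) := by
  simp only [kI]
  field_simp
  ring

/-- The base change of the Cayley transforms tends to the identity. -/
theorem tendsto_Phi [CharZero k] (hdiv : Division a b c) :
    Tendsto (fun n : ℕ => Phi φ (⟨kpE (nrd_kI (ne_a hdiv ((n : k)⁻¹))), kpE_mem _⟩ :
      E6I.GI ρ lam a b c)) atTop (𝓝 1) := by
  obtain ⟨A, hA⟩ : ∃ A : ℂ, A = φ (algebraMap k L a) := ⟨_, rfl⟩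
  obtain ⟨P, hP⟩ : ∃ P : R (uw φ (up L a)) (uw φ (up L b)) (uw φ (up L c)),
    P = LinearMap.toContinuousLinearMap (lp 1) := ⟨_, rfl⟩
  obtain ⟨B, hB⟩ : ∃ B : R (uw φ (up L a)) (uw φ (up L b)) (uw φ (up L c)),
    B = LinearMap.toContinuousLinearMap (lp (⟨0, 1, 0, 0⟩ : Qt (uw φ (up L a)) (uw φ (up L b)))) :=
    ⟨_, rfl⟩
  have h1 : ∀ n : ℕ, Phi φ (⟨kpE (nrd_kI (ne_a hdiv ((n : k)⁻¹))), kpE_mem _⟩ :
      E6I.GI ρ lam a b c) = 1 + ((2 * A * ((n : ℂ)⁻¹) ^ 2 / (1 - A * ((n : ℂ)⁻¹) ^ 2)) • P +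
        (2 * ((n : ℂ)⁻¹) / (1 - A * ((n : ℂ)⁻¹) ^ 2)) • B) := by
    intro n
    rw [Phi_kp, evq_coef φ (u := 2 * (n : k)⁻¹ / (1 - a * ((n : k)⁻¹) ^ 2))
      (kI_re a b (ne_a hdiv ((n : k)⁻¹))) rfl rfl rfl, lp_add, lp_smul,
      lp_smul, map_add, map_smul, map_smul, hP, hB, hA]
    simp only [map_div₀, map_mul, map_sub, map_pow, map_inv₀, map_natCast, map_ofNat, map_one]
  simp only [h1]
  have h2 : Tendsto (fun n : ℕ => ((n : ℂ)⁻¹)) atTop (𝓝 0) := tendsto_inv_atTop_nhds_zero_nat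
  have h3 : Tendsto (fun n : ℕ => 1 - A * ((n : ℂ)⁻¹) ^ 2) atTop (𝓝 (1 - A * 0 ^ 2)) :=
    ((h2.pow 2).const_mul A).const_sub 1
  have h4 : Tendsto (fun n : ℕ => 2 * A * ((n : ℂ)⁻¹) ^ 2 / (1 - A * ((n : ℂ)⁻¹) ^ 2)) atTop
      (𝓝 (2 * A * 0 ^ 2 / (1 - A * 0 ^ 2))) :=
    ((h2.pow 2).const_mul (2 * A)).div h3 (by norm_num)
  have h5 : Tendsto (fun n : ℕ => 2 * ((n : ℂ)⁻¹) / (1 - A * ((n : ℂ)⁻¹) ^ 2)) atTop
      (𝓝 (2 * 0 / (1 - A * 0 ^ 2))) := (h2.const_mul 2).div h3 (by norm_num)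
  have h6 := ((h4.smul_const P).add (h5.smul_const B)).const_add 1
  have e : (1 : R (uw φ (up L a)) (uw φ (up L b)) (uw φ (up L c))) +
      ((2 * A * 0 ^ 2 / (1 - A * 0 ^ 2)) • P + (2 * 0 / (1 - A * 0 ^ 2)) • B) = 1 := by
    have c1 : 2 * A * 0 ^ 2 / (1 - A * 0 ^ 2) = 0 := by norm_num
    have c2 : 2 * 0 / (1 - A * 0 ^ 2) = 0 := by norm_num
    rw [c1, c2]
    apply ContinuousLinearMap.ext
    intro x
    change x + ((0 : ℂ) • P x + (0 : ℂ) • B x) = x
    rw [zero_smul, zero_smul, add_zero, add_zero]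
  rwa [e] at h6

/-- **(II) at a real place**, for the inner groups. -/
theorem real_core [CharZero k] [CharZero L] (hdiv : Division a b c) (hφ : ∀ x, conj (φ x) = φ x)
    (hΓ : ∀ N : Subgroup (E6I.GI ρ lam a b c), N.Normal →
      N ≤ Subgroup.center (E6I.GI ρ lam a b c) ∨ N = ⊤) (f : E6I.GI ρ lam a b c) :
    Phi φ f ∈ ExpM (LN (uw φ (up L a)) (uw φ (up L b)) (uw φ (up L c)) ∩ CJ _ _ _) := by
  have hG : ∀ f : E6I.GI ρ lam a b c,
      Phi φ f ∈ GN (uw φ (up L a)) (uw φ (up L b)) (uw φ (up L c)) := fun f =>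
    loc_GN φ (map_add f.1) (map_smul f.1) f.2.1
  have hC : ∀ f : E6I.GI ρ lam a b c,
      Phi φ f ∈ CJ (uw φ (up L a)) (uw φ (up L b)) (uw φ (up L c)) := fun f =>
    loc_CJ φ hφ (map_add f.1) (map_smul f.1)
  refine normal_arg (g := LN (uw φ (up L a)) (uw φ (up L b)) (uw φ (up L c)) ∩ CJ _ _ _)
    (Phi φ) hΓ (fun X hX => ⟨neg_LN hX.1, neg_CJ hX.2⟩)
    (fun γ X hX => conj_LR (hG γ) (hC γ) (hC γ⁻¹) (by rw [← map_mul, mul_inv_cancel, map_one]) hX)
    (P := fun γ => ‖Phi φ γ - 1‖ ≤ 1 / 16) (fun γ hγ => ?_) ?_ f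
  · obtain ⟨X, hX, h1⟩ := log_real hγ (hG γ) (hC γ)
    exact ⟨X, hX, h1⟩
  · have h1 := tendsto_Phi (ρ := ρ) (lam := lam) φ hdiv
    have h2 : ∀ᶠ n : ℕ in atTop, ‖Phi φ (⟨kpE (nrd_kI (ne_a hdiv ((n : k)⁻¹))), kpE_mem _⟩ :
        E6I.GI ρ lam a b c) - 1‖ < 1 / 16 := by
      have h3 := (tendsto_iff_norm_sub_tendsto_zero.1 h1).eventually
        (gt_mem_nhds (by norm_num : (0 : ℝ) < 1 / 16))
      exact h3
    obtain ⟨n, h3, h4⟩ := (h2.and (eventually_gt_atTop 0)).exists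
    refine ⟨_, h3.le, fun hcen => ?_⟩
    have h5 := Subgroup.mem_center_iff.1 hcen ⟨kpE (nrd_kJ (ne_b hdiv)), kpE_mem _⟩
    have h6 := congrArg Subtype.val h5
    have h7 := kpE_comm (nrd_kJ (ne_b hdiv)) (nrd_kI (ne_a hdiv ((n : k)⁻¹))) h6
    refine kI_kJ (a := a) (b := b) (t := (n : k)⁻¹) ?_ (ne_a hdiv _) (ne_b hdiv) h7.symm
    exact inv_ne_zero (Nat.cast_ne_zero.2 (by omega))

end grp

end Vale.Agent.P011.H450.R
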