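import Vale.Agent.P011.H450.R.Dw
import Vale.Agent.P011.E6W.H183.KRho
import Vale.Agent.P011.E6H.XDefs
import Vale.Agent.P011.E6H.Hyp

/-!
Block R (helper450): the connectedness at a real place of the field of degree six, from the theorem
on the normal subgroups of the inner group.
-/

set_option linter.unusedSectionVars false

open Filter Topology NormedSpace

namespace Vale.Agent.P011.H450.R

open Vale.Agent.P011.MPQ
open Vale.Agent.P011.D4 Vale.Agent.P011.D4.Oct
open Vale.Agent.P011.E6 hiding cj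
open Vale.Agent.P011.E6H
open Vale.Agent.P011.E6O (KK mkK KK_fix finrank_KK)
open Vale.Agent.P011.E6W.H183
open Vale.Agent.P011.H261.Rl
open scoped ComplexConjugate

variable {k E : Type} [Field k] [Field E] [Algebra k E] {ρ σ : E ≃ₐ[k] E} {lam : Eˣ}
  {g : Fin 3 → Eˣ} {kap a b c : kˣ}

theorem rho_ne (hS : IsSextic ρ σ kap) : ρ ≠ 1 := by
  rintro rfl
  obtain ⟨x, hx⟩ := hS.hρ
  exact hx rfl

theorem rhoK_ne_one (hS : IsSextic ρ σ kap) : rhoK ρ ≠ 1 := by
  intro h
  apply rho_ne hS
  apply AlgEquiv.ext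
  intro x
  exact congrArg (fun f : E ≃ₐ[KK ρ] E => f x) h

theorem div_K (hE : Division (up E a) (up E b) (up E c)) :
    Division (up (KK ρ) a) (up (KK ρ) b) (up (KK ρ) c) := by
  intro x hx
  have h1 : oup E x = (0 : OctL E (up (KK ρ) a) (up (KK ρ) b) (up (KK ρ) c)) := by
    apply hE
    exact (norm_oup x).trans (by rw [hx, map_zero])
  exact Alb.oup_injective (h1.trans oup_zero.symm)

/-- The data of the inner group over the fixed field of `ρ`. -/
theorem hypK [NumberField k] [NumberField E] (hS : IsSextic ρ σ kap) (hg : IsForm ρ σ lam g)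
    (hE : Division (up E a) (up E b) (up E c)) :
    E6I.Hyp (rhoK ρ) (unK hg.ρlam) (up (KK ρ) a) (up (KK ρ) b) (up (KK ρ) c) where
  h3 := finrank_KK (rho_ne hS) hS.ρ3
  hρ := rhoK_ne_one hS
  hlam x hx := by
    apply hg.hlam x
    have h1 := E6I.norm_rho (finrank_KK (rho_ne hS) hS.ρ3) (rhoK_ne_one hS) x
    rw [hx] at h1
    exact h1.symm
  hdiv := div_K hE

/-- The embedding is not inert. -/
theorem not_inert [CharZero E] (hS : IsSextic ρ σ kap) {φ : E →+* ℂ} (hφ : RealE φ) :
    ¬ InertE σ φ := by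
  intro h
  obtain ⟨x, h1, -, h3⟩ := hS.sq
  have h4 : φ (σ x) = φ x := by rw [h, hφ]
  have h5 : σ x = x := φ.injective h4
  rw [h3] at h5
  have h6 : x = 0 := by
    have h7 : (2 : E) * x = 0 := by linear_combination -h5
    exact (mul_eq_zero.mp h7).resolve_left two_ne_zero
  rw [h6, zero_pow two_ne_zero] at h1
  exact kap.ne_zero ((map_eq_zero _).mp h1.symm)

/-- An element of the group, as an element of the inner group. -/
noncomputable def toGI (hl : ρ (lam : E) = lam) {f : Equiv.Perm (AlbL E a b c)}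
    (hf : f ∈ GPh ρ lam a b c) :
    E6I.GI (rhoK ρ) (unK hl) (up (KK ρ) a) (up (KK ρ) b) (up (KK ρ) c) :=
  ⟨{ toFun := f
     map_add' := hf.1.1
     map_smul' := hf.1.2.1
     invFun := f.symm
     left_inv := f.left_inv
     right_inv := f.right_inv }, hf.1.2.2, hf.2⟩

/-- **The connectedness at a real place**, from the theorem on the normal subgroups. -/
theorem conn_of_normal [NumberField k] [NumberField E] (hS : IsSextic ρ σ kap)
    (hg : IsForm ρ σ lam g) (hE : Division (up E a) (up E b) (up E c)) {φ : E →+* ℂ}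
    (hφ : RealE φ)
    (hΓ : E6I.Hyp (rhoK ρ) (unK hg.ρlam) (up (KK ρ) a) (up (KK ρ) b) (up (KK ρ) c) →
      ∀ N : Subgroup (E6I.GI (rhoK ρ) (unK hg.ρlam) (up (KK ρ) a) (up (KK ρ) b) (up (KK ρ) c)),
        N.Normal → N ≤ Subgroup.center _ ∨ N = ⊤) :
    Cn (Ll σ g φ a b c) {x | ∃ f ∈ G3 ρ σ lam g a b c, x = lc φ f} := by
  intro L hL h1 hm hX x hx
  obtain ⟨f, hf, rfl⟩ := hx
  have hk := real_core (L := E) φ (div_K hE) hφ (hΓ (hypK hS hg hE)) (toGI hg.ρlam hf.2)
  have h2 : ExpM (LN (uw φ (up E a)) (uw φ (up E b)) (uw φ (up E c)) ∩ CJ _ _ _) ≤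
      ({ carrier := L, one_mem' := h1, mul_mem' := fun {x y} hx hy => hm x hx y hy } :
        Submonoid (RE φ a b c)) := by
    unfold ExpM
    rw [Submonoid.closure_le]
    rintro _ ⟨X, hXm, rfl⟩
    have h3 := hX X ⟨hXm.1, fun h => absurd h (not_inert hS hφ), fun _ => hXm.2⟩ 1
    rwa [one_smul] at h3
  exact h2 hk

end Vale.Agent.P011.H450.R
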